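import Vale.Agent.P066.Theta.H366.Data

/-!
# Incoming data of a transported series, and of the quantum dilogarithm of a basis vector
-/

set_option autoImplicit false

open Finset

namespace Vale.Agent.P066.Theta

noncomputable section

namespace H366

open QSeries

variable {r : ℕ} {B B' : Matrix (Fin r) (Fin r) ℤ} {a : Fin r → ℕ} {k : Fin r}

/-! ### the quantum dilogarithm of a basis vector -/

/-- The multiples of `e_k`. -/
def axis (k : Fin r) : AddSubmonoid (Fin r →₀ ℕ) where
  carrier := {b | ∀ j, j ≠ k → b j = 0}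
  zero_mem' := by
    intro j _
    rfl
  add_mem' := by
    intro b c hb hc j hj
    rw [Finsupp.add_apply, hb j hj, hc j hj]

theorem mem_axis {b : Fin r →₀ ℕ} : b ∈ axis k ↔ ∀ j, j ≠ k → b j = 0 := Iff.rfl

theorem mem_axis_iff {b : Fin r →₀ ℕ} : b ∈ axis k ↔ b = Finsupp.single k (b k) := by
  rw [mem_axis]
  constructor
  · intro h
    ext j
    by_cases hj : j = k
    · subst hj
      simp
    · rw [h j hj, Finsupp.single_eq_of_ne hj]
  · intro h j hj
    rw [h, Finsupp.single_eq_of_ne hj]

theorem single_mem_axis (k : Fin r) (n : ℕ) : Finsupp.single k n ∈ axis k := by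
  intro j hj
  rw [Finsupp.single_eq_of_ne hj]

theorem wt_single (Q : Fin r → ℤ) (k : Fin r) (n : ℕ) : wt Q (Finsupp.single k n) = n * Q k := by
  unfold wt
  rw [sum_eq_single k]
  · simp
  · intro j _ hj
    rw [Finsupp.single_eq_of_ne hj]
    simp
  · intro h
    exact absurd (mem_univ k) h

theorem dilog_mem_axis (B : Matrix (Fin r) (Fin r) ℤ) (k : Fin r) :
    dilog B (Finsupp.single k 1) ∈ supp (B := B) (axis k) := by
  intro γ hγ
  unfold dilog at hγ
  obtain ⟨m, -, hm⟩ := exists_ne_zero_of_sum_ne_zero hγ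
  split_ifs at hm with h
  · rw [← h, Finsupp.smul_single_one]
    exact single_mem_axis k m
  · exact absurd rfl hm

theorem dilog_single (B : Matrix (Fin r) (Fin r) ℤ) (k : Fin r) (n : ℕ) :
    dilog B (Finsupp.single k 1) (Finsupp.single k n) = psi n := by
  unfold dilog
  have hd : ∑ i, (Finsupp.single k n : Fin r →₀ ℕ) i = n := deg_single k n
  rw [hd, sum_eq_single n]
  · rw [if_pos (Finsupp.smul_single_one k n)]
  · intro m _ hm
    rw [if_neg]
    intro h
    rw [Finsupp.smul_single_one] at h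
    exact hm (Finsupp.single_injective k h)
  · intro h
    rw [mem_range] at h
    omega

theorem dilog_zero (B : Matrix (Fin r) (Fin r) ℤ) (k : Fin r) :
    dilog B (Finsupp.single k 1) 0 = 1 := by
  have h := dilog_single B k 0
  rw [Finsupp.single_zero] at h
  rw [h]
  simp [psi]

theorem logD_dilog_single (hB : B.transpose = -B) (k : Fin r) {n : ℕ} (hn : n ≠ 0) :
    logD one1 (dilog B (Finsupp.single k 1)) (Finsupp.single k n) =
      clusterData (Finsupp.single k n) := by
  classical
  obtain ⟨L, hL⟩ : ∃ L : QSeries B, ∀ γ, L γ = if γ ∈ axis k then Face.psiLog (γ k) else 0 :=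
    ⟨fun γ => if γ ∈ axis k then Face.psiLog (γ k) else 0, fun _ => rfl⟩
  have hm : L ∈ supp (B := B) (axis k) := by
    intro γ hγ
    by_contra h
    apply hγ
    rw [hL, if_neg h]
  have e : dilog B (Finsupp.single k 1) * L = gradD one1 (dilog B (Finsupp.single k 1)) := by
    ext γ
    by_cases hγ : γ ∈ axis k
    · have hγ' := mem_axis_iff.1 hγ
      rw [hγ', Face.mul_single hB, gradD_apply, dilog_single, wt_single]
      have h1 := Face.psi_logDeriv (γ k)
      simp only [one1, mul_one]
      rw [Int.cast_natCast, ← h1]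
      refine sum_congr rfl fun p _ => ?_
      rw [dilog_single, hL, if_pos (single_mem_axis k p.2), Finsupp.single_eq_same]
    · have h1 : (dilog B (Finsupp.single k 1) * L) γ = 0 := by
        by_contra h
        exact hγ (mul_mem (dilog_mem_axis B k) hm γ h)
      have h2 : gradD one1 (dilog B (Finsupp.single k 1)) γ = 0 := by
        by_contra h
        exact hγ (gradD_mem (dilog_mem_axis B k) one1 γ h)
      rw [h1, h2]
  rw [← eq_logD (dilog_zero B k) e, Face.clusterData_single k hn, hL,
    if_pos (single_mem_axis k n), Finsupp.single_eq_same]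

theorem logD_dilog_of_not (k : Fin r) {b : Fin r →₀ ℕ} (hb : b ∉ axis k) :
    logD one1 (dilog B (Finsupp.single k 1)) b = 0 := by
  by_contra h
  exact hb (logD_mem (dilog_mem_axis B k) (dilog_zero B k) one1 b h)

theorem axis_le_pos {Q : Fin r → ℤ} (h : 0 < Q k) : axis k ≤ posSub Q := by
  intro γ hγ
  rw [mem_axis_iff] at hγ
  rw [mem_posSub]
  rcases Nat.eq_zero_or_pos (γ k) with h0 | h0
  · left
    rw [hγ, h0, Finsupp.single_zero]
  · right
    rw [hγ, wt_single]
    have : (0 : ℤ) < (γ k : ℤ) := by exact_mod_cast h0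
    exact mul_pos this h

theorem axis_le_neg {Q : Fin r → ℤ} (h : Q k < 0) : axis k ≤ negSub Q := by
  intro γ hγ
  rw [mem_axis_iff] at hγ
  rw [mem_negSub]
  rcases Nat.eq_zero_or_pos (γ k) with h0 | h0
  · left
    rw [hγ, h0, Finsupp.single_zero]
  · right
    rw [hγ, wt_single]
    have : (0 : ℤ) < (γ k : ℤ) := by exact_mod_cast h0
    exact mul_neg_of_pos_of_neg this h

theorem axis_le_zero {Q : Fin r → ℤ} (h : Q k = 0) : axis k ≤ zeroSub Q := by
  intro γ hγ
  rw [mem_axis_iff] at hγ
  rw [mem_zeroSub, hγ, wt_single, h, mul_zero]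

/-! ### transported series -/

/-- The coordinate change of a compatible vector. -/
def cc (hc : Compat B B' a k) : CoordChange B B' where
  S := coneA a k
  S' := coneA a k
  f := tm a k
  g := tm a k
  f_mem := fun b _ => tm_mem hc.ak b
  g_mem := fun b _ => tm_mem hc.ak b
  gf := fun _ hb => tm_tm hc.ak hb
  fg := fun _ hb => tm_tm hc.ak hb
  f_add := fun _ hb _ hc => tm_add hb hc
  omega_f := fun b hb c hc' => by
    rw [hc.form, ← toZ_tm (tm_mem hc.ak b), ← toZ_tm (tm_mem hc.ak c), tm_tm hc.ak hb,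
      tm_tm hc.ak hc']

theorem cc_tr (hc : Compat B B' a k) (h : QSeries B) : (cc hc).tr h = TR B' a k h := by
  classical
  ext b
  by_cases hb : b ∈ coneA a k
  · rw [(cc hc).tr_mem hb]
    exact (if_pos hb).symm
  · rw [(cc hc).tr_not_mem hb]
    exact (if_neg hb).symm

theorem datW_tr_not_mem (hc : Compat B B' a k) {h : QSeries B} (h0 : h 0 = 1) (l : Fin r → ℤ)
    {b' : Fin r →₀ ℕ} (hb : b' ∉ coneA a k) : datW l ((cc hc).tr h) b' = 0 := by
  have H := triple_spec (g := (cc hc).tr h) (by rw [(cc hc).tr_apply_zero, h0])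
    (chartAt B' 0 b')
  have hS := (H.mem_supp (S := coneA a k) ((cc hc).tr_mem_supp h)).2.1
  by_contra hne
  exact hb (logD_mem hS H.g0_zero l b' hne)

theorem datW_tr_mem (hc : Compat B B' a k) {h : QSeries B} (h0 : h 0 = 1)
    (hh : h ∈ supp (B := B) (coneA a k)) {b' : Fin r →₀ ℕ} (hb : b' ∈ coneA a k) :
    datW one1 ((cc hc).tr h) b' = datW (pull a k one1) h (tm a k b') := by
  have H := triple_spec h0 (chartAt B 0 (tm a k b'))
  obtain ⟨sp, s0, sm⟩ := H.mem_supp (S := coneA a k) hh
  have hQ : ∀ γ ∈ (cc hc).S, wt (chartAt B' 0 b') ((cc hc).f γ) =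
      wt (chartAt B 0 (tm a k b')) γ := by
    intro γ hγ
    have h1 : (cc hc).f ((cc hc).g b') = b' := (cc hc).fg b' hb
    have h2 := (cc hc).omega_f γ hγ _ ((cc hc).g_mem b' hb)
    rw [h1] at h2
    rw [wt_chartAt_zero, wt_chartAt_zero, h2]
    rfl
  have H' := (cc hc).tr_triple hQ sp s0 sm H
  have hl : ∀ γ ∈ (cc hc).S, wt one1 ((cc hc).f γ) = wt (pull a k one1) γ := by
    intro γ hγ
    have h1 := wt_pull hc.ak one1 (tm_mem hc.ak (k := k) γ)
    rw [tm_tm hc.ak hγ] at h1
    exact h1.symm
  rw [datW_eq one1 H', datW_eq (pull a k one1) H]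
  have h1 : (zeroPart h (chartAt B 0 (tm a k b'))) 0 ≠ 0 := by
    rw [H.g0_zero]
    exact one_ne_zero
  rw [logD, ← (cc hc).tr_gradD hl, ← (cc hc).tr_inverse s0 h1,
    ← (cc hc).tr_mul (inverse_mem_supp s0 h1) (gradD_mem s0 _), (cc hc).tr_mem hb]
  rfl

theorem single_mem_coneA {j : Fin r} (hj : j ≠ k) (n : ℕ) : Finsupp.single j n ∈ coneA a k := by
  rw [mem_coneA, Finsupp.single_eq_of_ne (Ne.symm hj)]
  exact Nat.zero_le _

theorem wa_single (a : Fin r → ℕ) (j : Fin r) (n : ℕ) : wa a (Finsupp.single j n) = n * a j := by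
  unfold wa
  rw [sum_eq_single j]
  · simp
  · intro i _ hi
    rw [Finsupp.single_eq_of_ne hi, zero_mul]
  · intro h
    exact absurd (mem_univ j) h

theorem tm_single {j : Fin r} (hj : j ≠ k) (n : ℕ) (haj : a j = 0) :
    tm a k (Finsupp.single j n) = Finsupp.single j n := by
  ext i
  by_cases hi : i = k
  · subst hi
    rw [tm_apply_self, wa_single, haj, mul_zero, Nat.zero_sub, Finsupp.single_eq_of_ne (Ne.symm hj)]
  · rw [tm_apply_ne a hi]

theorem tm_mem_axis {b : Fin r →₀ ℕ} : tm a k b ∈ axis k ↔ b ∈ axis k := by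
  rw [mem_axis, mem_axis]
  constructor
  · intro h j hj
    rw [← tm_apply_ne a hj]
    exact h j hj
  · intro h j hj
    rw [tm_apply_ne a hj]
    exact h j hj

/-- Comparison of the incoming data of `h` and of the transported series. -/
theorem dat_compare (hB : B.transpose = -B) (hc : Compat B B' a k) {h : QSeries B} (h0 : h 0 = 1)
    (hh : h ∈ supp (B := B) (coneA a k)) {b' : Fin r →₀ ℕ} (hb' : b' ≠ 0) (hk : b' ∉ axis k)
    (hdat : b' ∈ coneA a k → datW one1 h (tm a k b') = clusterData (tm a k b'))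
    (hax : ∀ j, j ≠ k → b' j ≠ 0 → (∀ i, i ≠ k → i ≠ j → b' i = 0) → a j = 0) :
    datW one1 ((cc hc).tr h) b' = clusterData b' := by
  classical
  have hax1 : ∀ j, b' = Finsupp.single j (b' j) → j ≠ k ∧ a j = 0 := by
    intro j hj
    have hjk : j ≠ k := by
      rintro rfl
      exact hk (mem_axis_iff.2 hj)
    refine ⟨hjk, hax j hjk ?_ ?_⟩
    · intro h1
      rw [h1, Finsupp.single_zero] at hj
      exact hb' hj
    · intro i _ hi
      rw [hj, Finsupp.single_eq_of_ne hi]
  by_cases hb : b' ∈ coneA a k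
  · rw [datW_tr_mem hc h0 hh hb]
    have hg := datW_grading hB h0 (tm a k b') (pull a k one1) one1
    rw [hdat hb, wt_pull hc.ak one1 hb, wt_one1, wt_one1] at hg
    have hd : ((deg (tm a k b') : ℤ) : K) ≠ 0 := by
      rw [Int.cast_natCast, Nat.cast_ne_zero]
      intro h1
      exact hb' (tm_eq_zero hc.ak hb (deg_eq_zero.1 h1))
    by_cases hx : ∃ j, tm a k b' = Finsupp.single j (tm a k b' j)
    · obtain ⟨j, hj⟩ := hx
      have hjk : j ≠ k := by
        rintro rfl
        exact hk (tm_mem_axis.1 (mem_axis_iff.2 hj))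
      have haj : a j = 0 := by
        refine hax j hjk ?_ ?_
        · intro h1
          rw [tm_apply_ne a hjk, h1, Finsupp.single_zero] at hj
          exact hb' (tm_eq_zero hc.ak hb hj)
        · intro i hik hi
          rw [← tm_apply_ne a hik, hj, Finsupp.single_eq_of_ne hi]
      have e : tm a k b' = b' := by
        have h1 := tm_tm hc.ak hb
        rw [hj, tm_single hjk _ haj] at h1
        rw [hj, h1]
      rw [e] at hg hd ⊢
      exact mul_left_cancel₀ hd hg.symm
    · have hx' : ¬ ∃ j, b' = Finsupp.single j (b' j) := by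
        rintro ⟨j, hj⟩
        obtain ⟨hjk, haj⟩ := hax1 j hj
        apply hx
        refine ⟨j, ?_⟩
        rw [tm_apply_ne a hjk]
        conv_lhs => rw [hj]
        exact tm_single hjk _ haj
      rw [clusterData, if_neg hx, mul_zero] at hg
      rw [clusterData, if_neg hx']
      exact (mul_eq_zero.1 hg.symm).resolve_left hd
  · rw [datW_tr_not_mem hc h0 one1 hb, clusterData, if_neg]
    rintro ⟨j, hj⟩
    obtain ⟨hjk, -⟩ := hax1 j hj
    apply hb
    rw [hj]
    exact single_mem_coneA hjk _

end H366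

end

end Vale.Agent.P066.Theta
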