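import Vale.Agent.P066.Theta.H366.MutBase
import Vale.Agent.P066.Theta.H615.Triple
import Vale.Agent.P066.Theta.H865.Transport
import Vale.Agent.P066.Theta.Face

/-!
# Incoming data of products and of transported series

`datW l g b`: the `b`-coefficient of `g0⁻¹ * gradD l g0`, where `g0` is the zero part of `g` for the
form `ω(·, b)`.
-/

set_option autoImplicit false

open Finset

namespace Vale.Agent.P066.Theta

noncomputable section

namespace H366

open QSeries

variable {r : ℕ} {B B' : Matrix (Fin r) (Fin r) ℤ}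

/-! ### logarithmic derivatives -/

theorem gradD_apply (l : Fin r → ℤ) (F : QSeries B) (γ : Fin r →₀ ℕ) :
    gradD l F γ = (wt l γ : K) * F γ := rfl

theorem gradD_mul (l : Fin r → ℤ) (F G : QSeries B) :
    gradD l (F * G) = gradD l F * G + F * gradD l G := by
  ext γ
  rw [QSeries.add_apply, gradD_apply, QSeries.mul_apply, QSeries.mul_apply, QSeries.mul_apply,
    mul_sum, ← sum_add_distrib]
  refine sum_congr rfl fun p hp => ?_
  rw [HasAntidiagonal.mem_antidiagonal] at hp
  rw [gradD_apply, gradD_apply, ← hp, wt_add]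
  push_cast
  ring

/-- the form `deg` -/
def one1 : Fin r → ℤ := fun _ => 1

theorem wt_one1 (γ : Fin r →₀ ℕ) : wt one1 γ = (deg γ : ℤ) := by
  unfold wt deg one1
  push_cast
  simp

theorem euler_eq (F : QSeries B) : euler F = gradD one1 F := by
  ext γ
  rw [gradD_apply, wt_one1]
  show (deg γ : K) * F γ = _
  push_cast
  rfl

/-- The logarithmic derivative. -/
def logD (l : Fin r → ℤ) (F : QSeries B) : QSeries B := Ring.inverse F * gradD l F

theorem mul_logD {F : QSeries B} (h : F 0 = 1) (l : Fin r → ℤ) : F * logD l F = gradD l F := by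
  rw [logD, ← mul_assoc, Ring.mul_inverse_cancel F (isUnit_of_one h), one_mul]

theorem eq_logD {F L : QSeries B} (h : F 0 = 1) {l : Fin r → ℤ} (e : F * L = gradD l F) :
    L = logD l F := by
  rw [logD, ← e, ← mul_assoc, Ring.inverse_mul_cancel F (isUnit_of_one h), one_mul]

theorem gradD_mem {S : AddSubmonoid (Fin r →₀ ℕ)} {F : QSeries B} (h : F ∈ supp (B := B) S)
    (l : Fin r → ℤ) : gradD l F ∈ supp (B := B) S := by
  intro γ hγ
  apply h
  intro h0
  apply hγ
  rw [gradD_apply, h0, mul_zero]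

theorem logD_mem {S : AddSubmonoid (Fin r →₀ ℕ)} {F : QSeries B} (h : F ∈ supp (B := B) S)
    (h0 : F 0 = 1) (l : Fin r → ℤ) : logD l F ∈ supp (B := B) S :=
  mul_mem (inverse_mem_supp h (by rw [h0]; exact one_ne_zero)) (gradD_mem h l)

theorem trace (hB : B.transpose = -B) {F : QSeries B} {b : Fin r →₀ ℕ}
    (hF : F ∈ supp (B := B) (zeroSub (chartAt B 0 b))) (G : QSeries B) :
    (F * G) b = (G * F) b := by
  rw [mul_apply, mul_apply]
  refine sum_nbij' Prod.swap Prod.swap ?_ ?_ (fun _ _ => rfl) (fun _ _ => rfl) ?_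
  · rintro ⟨p, q⟩ hp
    rw [HasAntidiagonal.mem_antidiagonal] at hp ⊢
    rw [← hp, add_comm]
    rfl
  · rintro ⟨p, q⟩ hp
    rw [HasAntidiagonal.mem_antidiagonal] at hp ⊢
    rw [← hp, add_comm]
    rfl
  · rintro ⟨p, q⟩ hp
    rw [HasAntidiagonal.mem_antidiagonal] at hp
    show v ^ omega B (toZ p) (toZ q) * F p * G q = v ^ omega B (toZ q) (toZ p) * G q * F p
    by_cases h : F p = 0
    · rw [h]
      ring
    · have h1 : omega B (toZ p) (toZ b) = 0 := by
        rw [← wt_chartAt_zero]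
        exact mem_zeroSub.1 (hF p h)
      have h2 : omega B (toZ p) (toZ q) = 0 := by
        rw [← hp] at h1
        change omega B (toZ p) (toZ (p + q)) = 0 at h1
        rw [toZ_add, omega_add_right, omega_self hB, zero_add] at h1
        exact h1
      rw [omega_swap hB (toZ q), h2]
      simp only [neg_zero, zpow_zero]
      ring

theorem logD_mul_apply (hB : B.transpose = -B) {F G : QSeries B} {b : Fin r →₀ ℕ}
    (hF0 : F 0 = 1) (hG0 : G 0 = 1) (hG : G ∈ supp (B := B) (zeroSub (chartAt B 0 b)))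
    (l : Fin r → ℤ) : logD l (F * G) b = logD l F b + logD l G b := by
  have hu := isUnit_of_one hG0
  have e : Ring.inverse G * (logD l F * G) + logD l G = logD l (F * G) := by
    apply eq_logD
    · rw [mul_zero_apply, hF0, hG0, one_mul]
    · rw [mul_add, mul_assoc, mul_assoc, mul_logD hG0, gradD_mul, ← mul_logD hF0 l]
      congr 1
      rw [← mul_assoc G, Ring.mul_inverse_cancel G hu, one_mul, mul_assoc]
  rw [← e, QSeries.add_apply, trace hB (inverse_mem_supp hG (by rw [hG0]; exact one_ne_zero)),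
    mul_assoc, Ring.mul_inverse_cancel G hu, mul_one]

theorem logD_grading (hB : B.transpose = -B) {F : QSeries B} {b : Fin r →₀ ℕ} (h0 : F 0 = 1)
    (hF : F ∈ supp (B := B) (zeroSub (chartAt B 0 b))) (l m : Fin r → ℤ) :
    (wt l b : K) * logD m F b = (wt m b : K) * logD l F b := by
  have hu := isUnit_of_one h0
  have c : gradD l (gradD m F) = gradD m (gradD l F) := by
    ext γ
    simp only [gradD_apply]
    ring
  rw [← mul_logD h0 l, ← mul_logD h0 m, gradD_mul, gradD_mul, ← mul_logD h0 l, ← mul_logD h0 m,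
    mul_assoc, mul_assoc, ← mul_add, ← mul_add] at c
  have c2 := hu.mul_left_cancel c
  have c3 := congrFun c2 b
  change (logD l F * logD m F) b + gradD l (logD m F) b =
    (logD m F * logD l F) b + gradD m (logD l F) b at c3
  rw [trace hB (logD_mem hF h0 l)] at c3
  exact add_left_cancel c3

/-! ### triples of products -/

theorem mul_supp_of {p q s : (Fin r →₀ ℕ) → Prop} (h : ∀ a b, p a → q b → s (a + b))
    {X Y : QSeries B} (hX : ∀ γ, X γ ≠ 0 → p γ) (hY : ∀ γ, Y γ ≠ 0 → q γ) :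
    ∀ γ, (X * Y) γ ≠ 0 → s γ := by
  intro γ hγ
  by_contra hs
  apply hγ
  apply QSeries.mul_apply_eq_zero
  intro a b hab
  by_contra hc
  push Not at hc
  exact hs (hab ▸ h a b (hX a hc.1) (hY b hc.2))

theorem conj_mem_of {p z : (Fin r →₀ ℕ) → Prop} (h1 : ∀ a b, p a → z b → p (a + b))
    (h2 : ∀ a b, z a → p b → p (a + b)) {X Y P : QSeries B} (hX : ∀ γ, X γ ≠ 0 → z γ)
    (hY : ∀ γ, Y γ ≠ 0 → z γ) (hXY : X * Y = 1) (hP0 : P 0 = 1) (hP : ∀ γ, γ ≠ 0 → P γ ≠ 0 → p γ) :
    ∀ γ, γ ≠ 0 → (X * P * Y) γ ≠ 0 → p γ := by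
  have hP' : ∀ γ, (P - 1) γ ≠ 0 → p γ := by
    intro γ hγ
    by_cases h : γ = 0
    · subst h
      rw [QSeries.sub_apply, hP0, QSeries.one_zero, sub_self] at hγ
      exact absurd rfl hγ
    · apply hP γ h
      rwa [QSeries.sub_apply, one_apply, if_neg h, sub_zero] at hγ
  have e : X * P * Y = X * (P - 1) * Y + 1 := by
    rw [mul_sub, sub_mul, mul_one, hXY, sub_add_cancel]
  intro γ hγ h
  rw [e, QSeries.add_apply, one_apply, if_neg hγ, add_zero] at h
  exact mul_supp_of h1 (mul_supp_of h2 hX hP') hY γ h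

theorem triple_pos_mul {P F Fp F0 Fm : QSeries B} {Q : Fin r → ℤ} (H : IsTriple F Fp F0 Fm Q)
    (h0 : P 0 = 1) (hP : P ∈ supp (B := B) (posSub Q)) : IsTriple (P * F) (P * Fp) F0 Fm Q := by
  rw [isTriple_iff] at H ⊢
  obtain ⟨h1, h2, h3, h4, h5, h6, h7⟩ := H
  exact ⟨by rw [mul_zero_apply, h0, h1, one_mul], mul_mem hP h2, h3, h4, h5, h6,
    by rw [h7, mul_assoc, mul_assoc, mul_assoc]⟩

theorem triple_mul_neg {P F Fp F0 Fm : QSeries B} {Q : Fin r → ℤ} (H : IsTriple F Fp F0 Fm Q)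
    (h0 : P 0 = 1) (hP : P ∈ supp (B := B) (negSub Q)) : IsTriple (F * P) Fp F0 (Fm * P) Q := by
  rw [isTriple_iff] at H ⊢
  obtain ⟨h1, h2, h3, h4, h5, h6, h7⟩ := H
  exact ⟨h1, h2, h3, h4, by rw [mul_zero_apply, h0, h5, one_mul], mul_mem h6 hP,
    by rw [h7, mul_assoc, mul_assoc]⟩

theorem triple_mul_zero {P F Fp F0 Fm : QSeries B} {Q : Fin r → ℤ} (H : IsTriple F Fp F0 Fm Q)
    (h0 : P 0 = 1) (hP : P ∈ supp (B := B) (zeroSub Q)) :
    IsTriple (F * P) Fp (F0 * P) (Ring.inverse P * Fm * P) Q := by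
  have hu := isUnit_of_one h0
  refine ⟨H.gp_zero, H.gp_supp, ?_, mul_mem H.g0_mem hP, ?_, ?_, ?_⟩
  · rw [mul_zero_apply, H.g0_zero, h0, one_mul]
  · rw [mul_zero_apply, mul_zero_apply, inverse_zero_apply h0, H.gm_zero, h0, one_mul, one_mul]
  · refine conj_mem_of (z := fun γ => wt Q γ = 0) ?_ ?_
      (inverse_mem_supp hP (by rw [h0]; exact one_ne_zero)) hP
      (Ring.inverse_mul_cancel P hu) H.gm_zero H.gm_supp
    · intro a b ha hb
      rw [wt_add, hb, add_zero]
      exact ha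
    · intro a b ha hb
      rw [wt_add, ha, zero_add]
      exact hb
  · rw [H.eq]
    simp only [mul_assoc]
    rw [← mul_assoc P (Ring.inverse P), Ring.mul_inverse_cancel P hu, one_mul]

theorem triple_zero_mul {P F Fp F0 Fm : QSeries B} {Q : Fin r → ℤ} (H : IsTriple F Fp F0 Fm Q)
    (h0 : P 0 = 1) (hP : P ∈ supp (B := B) (zeroSub Q)) :
    IsTriple (P * F) (P * Fp * Ring.inverse P) (P * F0) Fm Q := by
  have hu := isUnit_of_one h0
  refine ⟨?_, ?_, ?_, mul_mem hP H.g0_mem, H.gm_zero, H.gm_supp, ?_⟩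
  · rw [mul_zero_apply, mul_zero_apply, inverse_zero_apply h0, H.gp_zero, h0, one_mul, one_mul]
  · refine conj_mem_of (z := fun γ => wt Q γ = 0) ?_ ?_ hP
      (inverse_mem_supp hP (by rw [h0]; exact one_ne_zero))
      (Ring.mul_inverse_cancel P hu) H.gp_zero H.gp_supp
    · intro a b ha hb
      rw [wt_add, hb, add_zero]
      exact ha
    · intro a b ha hb
      rw [wt_add, ha, zero_add]
      exact hb
  · rw [mul_zero_apply, H.g0_zero, h0, one_mul]
  · rw [H.eq]
    simp only [mul_assoc]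
    rw [← mul_assoc (Ring.inverse P) P, Ring.inverse_mul_cancel P hu, one_mul]

/-! ### data -/

/-- The incoming datum of `g` at `b` for the grading `l`. -/
def datW (l : Fin r → ℤ) (g : QSeries B) (b : Fin r →₀ ℕ) : K :=
  logD l (zeroPart g (chartAt B 0 b)) b

theorem datW_eq {g gp g0 gm : QSeries B} {b : Fin r →₀ ℕ} (l : Fin r → ℤ)
    (H : IsTriple g gp g0 gm (chartAt B 0 b)) : datW l g b = logD l g0 b := by
  have h := (triple_spec H.g_zero (chartAt B 0 b)).unique H
  rw [datW, h.2.1]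

theorem isCluster_iff {g : QSeries B} :
    IsCluster B g ↔ g 0 = 1 ∧ ∀ b, b ≠ 0 → datW one1 g b = clusterData b := by
  constructor
  · rintro ⟨h0, h⟩
    refine ⟨h0, fun b hb => ?_⟩
    have H := triple_spec h0 (chartAt B 0 b)
    refine h b hb _ _ _ (logD one1 (zeroPart g (chartAt B 0 b))) H ?_
    rw [euler_eq, mul_logD H.g0_zero]
  · rintro ⟨h0, h⟩
    refine ⟨h0, fun b hb gp g0 gm L H hL => ?_⟩
    rw [euler_eq] at hL
    rw [eq_logD H.g0_zero hL, ← datW_eq _ H, h b hb]

theorem datW_pos_mul {P F : QSeries B} {b : Fin r →₀ ℕ} (l : Fin r → ℤ) (hF : F 0 = 1)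
    (h0 : P 0 = 1) (hP : P ∈ supp (B := B) (posSub (chartAt B 0 b))) :
    datW l (P * F) b = datW l F b := by
  have H := triple_spec hF (chartAt B 0 b)
  rw [datW_eq l H, datW_eq l (triple_pos_mul H h0 hP)]

theorem datW_mul_neg {P F : QSeries B} {b : Fin r →₀ ℕ} (l : Fin r → ℤ) (hF : F 0 = 1)
    (h0 : P 0 = 1) (hP : P ∈ supp (B := B) (negSub (chartAt B 0 b))) :
    datW l (F * P) b = datW l F b := by
  have H := triple_spec hF (chartAt B 0 b)
  rw [datW_eq l H, datW_eq l (triple_mul_neg H h0 hP)]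

theorem datW_mul_zero (hB : B.transpose = -B) {P F : QSeries B} {b : Fin r →₀ ℕ} (l : Fin r → ℤ)
    (hF : F 0 = 1) (h0 : P 0 = 1) (hP : P ∈ supp (B := B) (zeroSub (chartAt B 0 b))) :
    datW l (F * P) b = datW l F b + logD l P b := by
  have H := triple_spec hF (chartAt B 0 b)
  rw [datW_eq l H, datW_eq l (triple_mul_zero H h0 hP), logD_mul_apply hB H.g0_zero h0 hP]

theorem datW_zero_mul (hB : B.transpose = -B) {P F : QSeries B} {b : Fin r →₀ ℕ} (l : Fin r → ℤ)
    (hF : F 0 = 1) (h0 : P 0 = 1) (hP : P ∈ supp (B := B) (zeroSub (chartAt B 0 b))) :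
    datW l (P * F) b = logD l P b + datW l F b := by
  have H := triple_spec hF (chartAt B 0 b)
  rw [datW_eq l H, datW_eq l (triple_zero_mul H h0 hP), logD_mul_apply hB h0 H.g0_zero H.g0_mem]

theorem datW_grading (hB : B.transpose = -B) {F : QSeries B} (hF : F 0 = 1) (b : Fin r →₀ ℕ)
    (l m : Fin r → ℤ) : (wt l b : K) * datW m F b = (wt m b : K) * datW l F b := by
  have H := triple_spec hF (chartAt B 0 b)
  exact logD_grading hB H.g0_zero H.g0_mem l m

end H366

end

end Vale.Agent.P066.Theta
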