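import Vale.Agent.P066.Theta.H615.Chart
import Vale.Agent.P066.Theta.MutDefs

/-!
# Mutation: change of coordinates

For a vector `a : Fin r → ℕ` with `a k = 0`: the cone `{b_k ≤ ∑_j b_j a_j}`, the involution
`b_k ↦ ∑_j b_j a_j - b_k` of it, and the pull back of linear forms.  `a = aplus B k` is the change of
coordinates of `MutDefs.lean`, `a = aminus B k` is the other one.
-/

set_option autoImplicit false

open Finset

namespace Vale.Agent.P066.Theta

noncomputable section

namespace H366

variable {r : ℕ}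

/-- `w_a(b) = ∑_j b_j a_j`. -/
def wa (a : Fin r → ℕ) (b : Fin r →₀ ℕ) : ℕ := ∑ j, b j * a j

/-- The change of coordinates `b_k ↦ w_a(b) - b_k` on the cone. -/
def tm (a : Fin r → ℕ) (k : Fin r) (b : Fin r →₀ ℕ) : Fin r →₀ ℕ := b.update k (wa a b - b k)

/-- The same change of coordinates on the lattice. -/
def lin (a : Fin r → ℕ) (k : Fin r) (x : Fin r → ℤ) : Fin r → ℤ :=
  fun j => if j = k then (∑ i, x i * a i) - x k else x j

/-- Pull back of a linear form. -/
def pull (a : Fin r → ℕ) (k : Fin r) (Q : Fin r → ℤ) : Fin r → ℤ :=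
  fun j => if j = k then - Q k else Q j + a j * Q k

/-- Transport of a series supported on the cone. -/
def TR {B : Matrix (Fin r) (Fin r) ℤ} (B' : Matrix (Fin r) (Fin r) ℤ) (a : Fin r → ℕ) (k : Fin r)
    (h : QSeries B) : QSeries B' :=
  fun b => if b k ≤ wa a b then h (tm a k b) else 0

/-- `a_j = [ω(y_j, y_k)]₊`. -/
def aplus (B : Matrix (Fin r) (Fin r) ℤ) (k : Fin r) (j : Fin r) : ℕ := (max (B j k) 0).toNat

/-- `a_j = [ω(y_k, y_j)]₊`. -/
def aminus (B : Matrix (Fin r) (Fin r) ℤ) (k : Fin r) (j : Fin r) : ℕ := (max (B k j) 0).toNat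

theorem wplus_eq (B : Matrix (Fin r) (Fin r) ℤ) (k : Fin r) (b : Fin r →₀ ℕ) :
    wplus B k b = wa (aplus B k) b := rfl

theorem wminus_eq (B : Matrix (Fin r) (Fin r) ℤ) (k : Fin r) (b : Fin r →₀ ℕ) :
    wminus B k b = wa (aminus B k) b := rfl

theorem transp_eq (B : Matrix (Fin r) (Fin r) ℤ) (k : Fin r) (h : QSeries B) :
    transp B k h = TR (mutB B k) (aplus B k) k h := rfl

theorem tmap_eq (B : Matrix (Fin r) (Fin r) ℤ) (k : Fin r) (b : Fin r →₀ ℕ) :
    tmap B k b = tm (aplus B k) k b := rfl

/-- Transport of a series supported on `{b_k ≤ w₋(b)}` to the mutated seed. -/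
def transpM (B : Matrix (Fin r) (Fin r) ℤ) (k : Fin r) (h : QSeries B) : QSeries (mutB B k) :=
  TR (mutB B k) (aminus B k) k h

theorem transpM_apply (B : Matrix (Fin r) (Fin r) ℤ) (k : Fin r) (h : QSeries B)
    (b : Fin r →₀ ℕ) :
    transpM B k h b = if b k ≤ wminus B k b then h (b.update k (wminus B k b - b k)) else 0 := rfl

/-! ### the cone -/

@[simp] theorem wa_zero (a : Fin r → ℕ) : wa a 0 = 0 := by simp [wa]

theorem wa_add (a : Fin r → ℕ) (b c : Fin r →₀ ℕ) : wa a (b + c) = wa a b + wa a c := by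
  simp [wa, add_mul, sum_add_distrib]

/-- The cone `{b_k ≤ w_a(b)}`. -/
def coneA (a : Fin r → ℕ) (k : Fin r) : AddSubmonoid (Fin r →₀ ℕ) where
  carrier := {b | b k ≤ wa a b}
  zero_mem' := by simp
  add_mem' := by
    intro b c hb hc
    simp only [Set.mem_ofPred_eq] at hb hc ⊢
    rw [wa_add, Finsupp.add_apply]
    exact add_le_add hb hc

theorem mem_coneA {a : Fin r → ℕ} {k : Fin r} {b : Fin r →₀ ℕ} :
    b ∈ coneA a k ↔ b k ≤ wa a b := Iff.rfl

theorem tm_apply_self (a : Fin r → ℕ) (k : Fin r) (b : Fin r →₀ ℕ) :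
    tm a k b k = wa a b - b k := by
  simp [tm]

theorem tm_apply_ne (a : Fin r → ℕ) {k j : Fin r} (h : j ≠ k) (b : Fin r →₀ ℕ) :
    tm a k b j = b j := by
  simp [tm, h]

theorem wa_tm {a : Fin r → ℕ} {k : Fin r} (ha : a k = 0) (b : Fin r →₀ ℕ) :
    wa a (tm a k b) = wa a b := by
  unfold wa
  refine sum_congr rfl fun j _ => ?_
  by_cases h : j = k
  · rw [h, ha, mul_zero, mul_zero]
  · rw [tm_apply_ne a h]

theorem tm_mem {a : Fin r → ℕ} {k : Fin r} (ha : a k = 0) (b : Fin r →₀ ℕ) :
    tm a k b ∈ coneA a k := by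
  rw [mem_coneA, wa_tm ha, tm_apply_self]
  exact Nat.sub_le _ _

theorem tm_tm {a : Fin r → ℕ} {k : Fin r} (ha : a k = 0) {b : Fin r →₀ ℕ} (hb : b ∈ coneA a k) :
    tm a k (tm a k b) = b := by
  rw [mem_coneA] at hb
  ext j
  by_cases h : j = k
  · rw [h, tm_apply_self, wa_tm ha, tm_apply_self]
    omega
  · rw [tm_apply_ne a h, tm_apply_ne a h]

@[simp] theorem tm_zero (a : Fin r → ℕ) (k : Fin r) : tm a k 0 = 0 := by
  ext j
  by_cases h : j = k
  · rw [h, tm_apply_self]
    simp
  · rw [tm_apply_ne a h]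

theorem tm_eq_zero {a : Fin r → ℕ} {k : Fin r} (ha : a k = 0) {b : Fin r →₀ ℕ}
    (hb : b ∈ coneA a k) (h : tm a k b = 0) : b = 0 := by
  rw [← tm_tm ha hb, h, tm_zero]

theorem tm_add {a : Fin r → ℕ} {k : Fin r} {b c : Fin r →₀ ℕ} (hb : b ∈ coneA a k)
    (hc : c ∈ coneA a k) : tm a k (b + c) = tm a k b + tm a k c := by
  rw [mem_coneA] at hb hc
  ext j
  by_cases h : j = k
  · rw [h, Finsupp.add_apply, tm_apply_self, tm_apply_self, tm_apply_self, wa_add,
      Finsupp.add_apply]
    omega
  · rw [Finsupp.add_apply, tm_apply_ne a h, tm_apply_ne a h, tm_apply_ne a h, Finsupp.add_apply]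

theorem toZ_tm {a : Fin r → ℕ} {k : Fin r} {b : Fin r →₀ ℕ} (hb : b ∈ coneA a k) :
    toZ (tm a k b) = lin a k (toZ b) := by
  rw [mem_coneA] at hb
  funext j
  by_cases h : j = k
  · subst h
    simp only [toZ, lin, if_true, tm_apply_self]
    rw [Nat.cast_sub hb]
    simp [wa]
  · simp only [toZ, lin, if_neg h, tm_apply_ne a h]

/-! ### forms -/

theorem wt_eq_sum (Q : Fin r → ℤ) (b : Fin r →₀ ℕ) : wt Q b = ∑ i, toZ b i * Q i := rfl

theorem sum_lin_pull {a : Fin r → ℕ} {k : Fin r} (ha : a k = 0) (Q x : Fin r → ℤ) :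
    ∑ i, lin a k x i * pull a k Q i = ∑ i, x i * Q i := by
  have e : ∀ i, lin a k x i * pull a k Q i =
      x i * Q i + (x i * a i * Q k) + if i = k then (-(∑ i, x i * (a i : ℤ)) * Q k) else 0 := by
    intro i
    by_cases h : i = k
    · subst h
      simp only [lin, pull, if_true, ha]
      push_cast
      ring
    · simp only [lin, pull, if_neg h]
      ring
  rw [sum_congr rfl fun i _ => e i, sum_add_distrib, sum_add_distrib, ← sum_mul, sum_ite_eq' univ k]
  simp

theorem wt_pull {a : Fin r → ℕ} {k : Fin r} (ha : a k = 0) (Q : Fin r → ℤ) {b : Fin r →₀ ℕ}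
    (hb : b ∈ coneA a k) : wt (pull a k Q) (tm a k b) = wt Q b := by
  rw [wt_eq_sum, toZ_tm hb, sum_lin_pull ha, wt_eq_sum]

/-- The form `ω(·, y)`. -/
def chartZ (B : Matrix (Fin r) (Fin r) ℤ) (y : Fin r → ℤ) : Fin r → ℤ := fun i => ∑ j, B i j * y j

theorem chartAt_zero_eq (B : Matrix (Fin r) (Fin r) ℤ) (b : Fin r →₀ ℕ) :
    chartAt B 0 b = chartZ B (toZ b) := by
  funext i
  simp [chartAt, chartZ, toZ]

theorem omega_eq_sum (B : Matrix (Fin r) (Fin r) ℤ) (x y : Fin r → ℤ) :
    omega B x y = ∑ i, x i * chartZ B y i := by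
  unfold omega chartZ
  refine sum_congr rfl fun i _ => ?_
  rw [mul_sum]
  exact sum_congr rfl fun j _ => by ring

theorem omega_single_left (B : Matrix (Fin r) (Fin r) ℤ) (i : Fin r) (c : ℤ) (y : Fin r → ℤ) :
    omega B (Pi.single i c) y = c * chartZ B y i := by
  rw [omega_eq_sum, sum_eq_single i]
  · rw [Pi.single_eq_same]
  · intro j _ hj
    rw [Pi.single_eq_of_ne hj, zero_mul]
  · intro h
    exact absurd (mem_univ i) h

theorem lin_single_self {a : Fin r → ℕ} {k : Fin r} (ha : a k = 0) (c : ℤ) :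
    lin a k (Pi.single k c) = Pi.single k (-c) := by
  funext j
  by_cases h : j = k
  · subst h
    simp only [lin, if_true, Pi.single_eq_same]
    rw [sum_eq_single j]
    · simp [ha]
    · intro i _ hi
      simp [Pi.single_eq_of_ne hi]
    · intro h
      exact absurd (mem_univ j) h
  · simp [lin, h]

theorem lin_single_ne {a : Fin r → ℕ} {k i : Fin r} (h : i ≠ k) :
    lin a k (Pi.single i 1) = Pi.single i 1 + Pi.single k (a i : ℤ) := by
  funext j
  by_cases hj : j = k
  · subst hj
    simp only [lin, if_true, Pi.add_apply, Pi.single_eq_same]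
    rw [sum_eq_single i]
    · simp [Pi.single_eq_of_ne h.symm]
    · intro l _ hl
      simp [Pi.single_eq_of_ne hl]
    · intro h
      exact absurd (mem_univ i) h
  · simp [lin, hj]

/-- `a` describes a change of coordinates between `B` and `B'`. -/
structure Compat (B B' : Matrix (Fin r) (Fin r) ℤ) (a : Fin r → ℕ) (k : Fin r) : Prop where
  ak : a k = 0
  form : ∀ x y, omega B' x y = omega B (lin a k x) (lin a k y)

theorem pull_chartZ {B B' : Matrix (Fin r) (Fin r) ℤ} {a : Fin r → ℕ} {k : Fin r}
    (hc : Compat B B' a k) (y : Fin r → ℤ) :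
    pull a k (chartZ B' y) = chartZ B (lin a k y) := by
  have e : ∀ i, chartZ B' y i = omega B (lin a k (Pi.single i 1)) (lin a k y) := by
    intro i
    rw [← hc.form, omega_single_left, one_mul]
  have ek : chartZ B' y k = - chartZ B (lin a k y) k := by
    rw [e, lin_single_self hc.ak, omega_single_left]
    ring
  funext j
  by_cases h : j = k
  · subst h
    simp only [pull, if_true, ek, neg_neg]
  · simp only [pull, if_neg h]
    rw [ek, e j, lin_single_ne h, omega_add_left, omega_single_left, omega_single_left]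
    ring

/-! ### the two changes of coordinates of a mutation -/

theorem omega_smul_left (B : Matrix (Fin r) (Fin r) ℤ) (c : ℤ) (x y : Fin r → ℤ) :
    omega B (c • x) y = c * omega B x y := by
  rw [omega_eq_sum, omega_eq_sum, mul_sum]
  exact sum_congr rfl fun i _ => by rw [Pi.smul_apply, smul_eq_mul, mul_assoc]

theorem omega_sum_left (B : Matrix (Fin r) (Fin r) ℤ) {ι : Type*} (s : Finset ι)
    (f : ι → Fin r → ℤ) (y : Fin r → ℤ) : omega B (∑ i ∈ s, f i) y = ∑ i ∈ s, omega B (f i) y := by
  classical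
  induction s using Finset.induction_on with
  | empty => simp
  | insert a s ha ih => rw [sum_insert ha, sum_insert ha, omega_add_left, ih]

theorem omega_sum_sum {B : Matrix (Fin r) (Fin r) ℤ} (hB : B.transpose = -B)
    (m : Fin r → Fin r → ℤ) (x y : Fin r → ℤ) :
    omega B (∑ i, x i • m i) (∑ j, y j • m j) = ∑ i, ∑ j, x i * omega B (m i) (m j) * y j := by
  rw [omega_sum_left]
  refine sum_congr rfl fun i _ => ?_
  rw [omega_smul_left, omega_swap hB, omega_sum_left, ← sum_neg_distrib, mul_sum]
  refine sum_congr rfl fun j _ => ?_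
  rw [omega_smul_left, omega_swap hB (m i) (m j)]
  ring

theorem lin_eq (a : Fin r → ℕ) (k : Fin r) (x : Fin r → ℤ) :
    lin a k x = x + ((∑ i, x i * (a i : ℤ)) - 2 * x k) • Pi.single k 1 := by
  funext j
  by_cases h : j = k
  · subst h
    simp only [lin, if_true, Pi.add_apply, Pi.smul_apply, Pi.single_eq_same, smul_eq_mul]
    ring
  · simp [lin, h]

theorem skew_apply {B : Matrix (Fin r) (Fin r) ℤ} (hB : B.transpose = -B) (i j : Fin r) :
    B i j = - B j i := by
  have := congrFun (congrFun hB j) i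
  simpa using this

theorem skew_diag {B : Matrix (Fin r) (Fin r) ℤ} (hB : B.transpose = -B) (i : Fin r) :
    B i i = 0 := by
  have := skew_apply hB i i
  omega

theorem aplus_cast (B : Matrix (Fin r) (Fin r) ℤ) (k j : Fin r) :
    (aplus B k j : ℤ) = max (B j k) 0 := by
  unfold aplus
  rw [Int.toNat_of_nonneg (le_max_right _ _)]

theorem aminus_cast (B : Matrix (Fin r) (Fin r) ℤ) (k j : Fin r) :
    (aminus B k j : ℤ) = max (B k j) 0 := by
  unfold aminus
  rw [Int.toNat_of_nonneg (le_max_right _ _)]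

theorem aplus_self {B : Matrix (Fin r) (Fin r) ℤ} (hB : B.transpose = -B) (k : Fin r) :
    aplus B k k = 0 := by
  simp [aplus, skew_diag hB]

theorem aminus_self {B : Matrix (Fin r) (Fin r) ℤ} (hB : B.transpose = -B) (k : Fin r) :
    aminus B k k = 0 := by
  simp [aminus, skew_diag hB]

theorem lin_aplus_eq_sum {B : Matrix (Fin r) (Fin r) ℤ} (hB : B.transpose = -B) (k : Fin r)
    (x : Fin r → ℤ) : lin (aplus B k) k x = ∑ i, x i • mutVec B k i := by
  funext j
  rw [Finset.sum_apply]
  by_cases h : j = k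
  · subst h
    have e : ∀ i, (x i • mutVec B j i) j = x i * (aplus B j i : ℤ) + if i = j then - x i else 0 := by
      intro i
      by_cases hi : i = j
      · subst hi
        simp [mutVec, aplus_self hB]
      · simp [mutVec, hi, aplus_cast]
    rw [sum_congr rfl fun i _ => e i, sum_add_distrib, sum_ite_eq' univ j]
    simp [lin, sub_eq_add_neg]
  · rw [sum_eq_single j]
    · simp [lin, mutVec, h]
    · intro i _ hi
      by_cases hik : i = k
      · simp [mutVec, hik, Pi.single_eq_of_ne h]
      · simp [mutVec, hik, Pi.single_eq_of_ne h, Pi.single_eq_of_ne (Ne.symm hi)]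
    · intro h
      exact absurd (mem_univ j) h

theorem compat_plus {B : Matrix (Fin r) (Fin r) ℤ} (hB : B.transpose = -B) (k : Fin r) :
    Compat B (mutB B k) (aplus B k) k where
  ak := aplus_self hB k
  form := by
    intro x y
    rw [lin_aplus_eq_sum hB, lin_aplus_eq_sum hB, omega_sum_sum hB]
    rfl

theorem compat_minus {B : Matrix (Fin r) (Fin r) ℤ} (hB : B.transpose = -B) (k : Fin r) :
    Compat B (mutB B k) (aminus B k) k where
  ak := aminus_self hB k
  form := by
    intro x y
    rw [(compat_plus hB k).form]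
    have e : ∀ x : Fin r → ℤ, lin (aplus B k) k x =
        lin (aminus B k) k x + omega B x (Pi.single k 1) • Pi.single k 1 := by
      intro x
      rw [lin_eq, lin_eq, add_assoc, ← add_smul]
      congr 2
      rw [omega_swap hB, omega_single_left, one_mul]
      unfold chartZ
      rw [sub_add_eq_add_sub, sub_left_inj, ← sub_eq_iff_eq_add', ← sum_sub_distrib,
        ← sum_neg_distrib]
      refine sum_congr rfl fun i _ => ?_
      rw [aplus_cast, aminus_cast, ← mul_sub, skew_apply hB i k]
      rcases le_total (B k i) 0 with h | h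
      · rw [max_eq_left (by omega), max_eq_right h]
        ring
      · rw [max_eq_right (by omega), max_eq_left h]
        ring
    have e2 : ∀ (a : Fin r → ℕ) (x : Fin r → ℤ),
        omega B (lin a k x) (Pi.single k 1) = omega B x (Pi.single k 1) := by
      intro a x
      rw [lin_eq, omega_add_left, omega_smul_left, omega_self hB, mul_zero, add_zero]
    rw [e x, e y, omega_add_left, omega_add_right, omega_add_right, omega_smul_left,
      omega_smul_left, omega_swap hB (Pi.single k 1) (lin _ k y), e2,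
      omega_swap hB (lin _ k x) (_ • _), omega_smul_left,
      omega_swap hB (Pi.single k 1) (lin _ k x), e2, omega_swap hB (Pi.single k 1) (_ • _),
      omega_smul_left, omega_self hB]
    ring

theorem mutB_skew {B : Matrix (Fin r) (Fin r) ℤ} (hB : B.transpose = -B) (k : Fin r) :
    (mutB B k).transpose = - mutB B k := by
  ext i j
  simp only [Matrix.transpose_apply, Matrix.neg_apply]
  unfold mutB
  exact omega_swap hB _ _

theorem omega_single_single (B : Matrix (Fin r) (Fin r) ℤ) (i j : Fin r) :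
    omega B (Pi.single i 1) (Pi.single j 1) = B i j := by
  rw [omega_single_left, one_mul]
  unfold chartZ
  rw [sum_eq_single j]
  · simp
  · intro l _ hl
    simp [Pi.single_eq_of_ne hl]
  · intro h
    exact absurd (mem_univ j) h

theorem mutB_apply_right {B : Matrix (Fin r) (Fin r) ℤ} (hB : B.transpose = -B) (k j : Fin r) :
    mutB B k j k = - B j k := by
  rw [← omega_single_single (mutB B k), (compat_plus hB k).form, lin_single_self (aplus_self hB k),
    lin_eq, omega_swap hB, omega_single_left, ← omega_single_single B j k,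
    omega_swap hB (Pi.single j 1), ← one_mul (omega B (Pi.single k 1) _), omega_single_left,
    ← one_mul (chartZ B (Pi.single j 1 + _) k), ← omega_single_left, omega_add_right,
    omega_swap hB _ (_ • _), omega_smul_left, omega_self hB, omega_single_left]
  ring

theorem mutB_apply_left {B : Matrix (Fin r) (Fin r) ℤ} (hB : B.transpose = -B) (k j : Fin r) :
    mutB B k k j = - B k j := by
  rw [skew_apply (mutB_skew hB k), mutB_apply_right hB, ← skew_apply hB]

theorem wplus_mutB {B : Matrix (Fin r) (Fin r) ℤ} (hB : B.transpose = -B) (k : Fin r)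
    (b : Fin r →₀ ℕ) : wplus (mutB B k) k b = wminus B k b := by
  unfold wplus wminus
  refine sum_congr rfl fun j _ => ?_
  rw [mutB_apply_right hB, ← skew_apply hB]

theorem wminus_mutB {B : Matrix (Fin r) (Fin r) ℤ} (hB : B.transpose = -B) (k : Fin r)
    (b : Fin r →₀ ℕ) : wminus (mutB B k) k b = wplus B k b := by
  unfold wplus wminus
  refine sum_congr rfl fun j _ => ?_
  rw [mutB_apply_left hB, ← skew_apply hB]

end H366

end

end Vale.Agent.P066.Theta
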